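import Vale.Agent.P281.H64.Gen.SpecN

/-!
# P281, project T-V, neat models, fibres of `f` itself (helper64): statement of V15 (FROZEN)
-/

open Set Filter Metric Vale.Agent.P281 Vale.Agent.P281.J Vale.Agent.P281.H713
open Vale.Agent.P281.H64.Thin (IsThinSet)
open scoped Topology ContDiff Manifold

noncomputable section

namespace Vale.Agent.P281.H64.Gen

/-- **V15**: as `NeatStmt`, but for the fibres `F` of `f` itself. Let `(u, v)` be the square,
`N = u '' excSet u` (`IsSmall2`): `f '' N` is contained in a countable union of thin sets of `Y`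
(`ImgLocStmt`: `N` is locally contained in manifolds of dimension `p - 1`), and so are
`v '' excSet v` and the images by `v` of the thin sets of `NeatStmt`. Off them, `F` does not meet `N`,
so `i` lifts to `i₁ : F → X₁` (`H308.Bir.inv`), a fibre of `f₁`, and `kodR i Δ ≤ kodR i₁ Δ₁` (the
strict transform of a component of `Δ` which meets `i(F)`, by `IrrStmt`). -/
def NeatFStmt : Prop :=
  ∀ (p : ℕ) (X Y X₁ Y₁ : Type) [TopologicalSpace X] [ChartedSpace (Cm (p + 1)) X]
    [TopologicalSpace Y] [ChartedSpace (Cm p) Y] [TopologicalSpace X₁]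
    [ChartedSpace (Cm (p + 1)) X₁] [TopologicalSpace Y₁] [ChartedSpace (Cm p) Y₁]
    (f : X → Y) (Δ : Set X → ℝ) (f₁ : X₁ → Y₁) (Δ₁ : Set X₁ → ℝ),
    H511.Surf.IsFibration (Cm (p + 1)) (Cm p) f Δ →
    H511.Surf.IsFibration (Cm (p + 1)) (Cm p) f₁ Δ₁ →
    TZ.S.IsStep (Cm (p + 1)) (Cm p) f₁ Δ₁ f Δ → ExcOne (Cm (p + 1)) (Cm p) f₁ Δ₁ →
    ∃ H : ℕ → Set Y, (∀ k, IsThinSet (Cm p) (H k)) ∧ ∀ y, (∀ k, y ∉ H k) →
      ∀ (F : Type) [TopologicalSpace F] [ChartedSpace (Cm 1) F] (i : F → X),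
        H511.Surf.IsFibre (Cm (p + 1)) (Cm 1) f y i →
        H511.Surf.Q1 (Cm (p + 1)) (Cm p) (Cm 1) f Δ i

end Vale.Agent.P281.H64.Gen
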