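import Vale.Agent.P281.H64.Gen.Spec
import Vale.Agent.P281.H511.Surf.Defs

/-!
# P281, project T-V, neat models (helper64): statements of the blocks (FROZEN)

Fibrations of relative dimension one with exceptional divisors.
-/

open Set Filter Metric Vale.Agent.P281 Vale.Agent.P281.J Vale.Agent.P281.H713
open Vale.Agent.P281.H64.Thin (IsThinSet)
open scoped Topology ContDiff Manifold

noncomputable section

namespace Vale.Agent.P281.H64.Gen

section
variable (E E' : Type) [NormedAddCommGroup E] [NormedSpace ℂ E] [NormedAddCommGroup E']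
  [NormedSpace ℂ E'] {X Y X₁ : Type} [TopologicalSpace X] [ChartedSpace E X] [TopologicalSpace Y]
  [ChartedSpace E' Y] [TopologicalSpace X₁] [ChartedSpace E X₁]

/-- The exceptional prime divisors `D` of `f` (`f(D)` is neither `Y` nor a prime divisor) have
coefficient `1` in `Δ`, and `B(f, Δ)` has simple normal crossings. -/
def ExcOne (f : X → Y) (Δ : Set X → ℝ) : Prop :=
  (∀ D, IsPrime E D → closure (f '' D) = univ ∨ IsPrime E' (closure (f '' D)) ∨ Δ D = 1) ∧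
    ∀ y, TZ.S.SNCAt E' (TZ.S.base E E' f Δ) y

/-- The points where `u` is not a local isomorphism. -/
def excSet (u : X₁ → X) : Set X₁ :=
  {z | ¬ Function.Bijective (mfderiv 𝓘(ℂ, E) 𝓘(ℂ, E) u z)}

/-- `A` is closed, and contained in a countable union of closed sets, which are locally contained in
submanifolds of codimension two. -/
def IsSmall2 (A : Set X) : Prop :=
  IsClosed A ∧ ∃ H : ℕ → Set X, (∀ k, IsClosed (H k) ∧ ∀ x ∈ H k, ∃ g : Fin 2 → X → ℂ,
    (∀ a, HolAt E (g a) x) ∧ (Function.Surjective fun (ξ : E) (a : Fin 2) => dif E (g a) x ξ) ∧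
    ∀ᶠ z in 𝓝 x, z ∈ H k → ∀ a, g a z = 0) ∧ A ⊆ ⋃ k, H k

end

/-- **V12**: `BaseStmt` with `ExcOne` in place of `NoExc`. (At an exceptional `D` the condition of
`OrbMor` is `1 - 1 ≤ k (1 - Γ G)`, and the closure condition is trivial as `Γ` is SNC everywhere;
finiteness: over a prime `G` with `Γ G ≠ 0` there is a prime `D` dominating `G`, since the finitely
many primes `P ⊆ f⁻¹(G)` which do not dominate `G` have closed images with empty interior in
`G`.) -/
def Base1Stmt : Prop :=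
  ∀ (n p : ℕ) (X Y : Type) [TopologicalSpace X] [T2Space X] [CompactSpace X] [ConnectedSpace X]
    [ChartedSpace (Cm n) X] [IsManifold 𝓘(ℂ, Cm n) ω X] [TopologicalSpace Y] [T2Space Y]
    [ChartedSpace (Cm p) Y] [IsManifold 𝓘(ℂ, Cm p) ω Y] (f : X → Y) (Δ : Set X → ℝ),
    ContMDiff 𝓘(ℂ, Cm n) 𝓘(ℂ, Cm p) ω f → (∀ y, IsConnected (f ⁻¹' {y})) →
    IsSNC (Cm n) Δ → ExcOne (Cm n) (Cm p) f Δ → ∀ Γ : Set Y → ℝ,
    Γ = TZ.S.base (Cm n) (Cm p) f Δ →
    {G | Γ G ≠ 0}.Finite ∧ (∀ G, Γ G ≠ 0 → IsPrime (Cm p) G) ∧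
    (∀ G, ∃ q : ℚ, Γ G = q ∧ 0 ≤ q ∧ q ≤ 1) ∧
    (∀ z G, Γ G ≠ 0 → f z ∈ G →
      z ∈ closure {z' | (∃ G, Γ G ≠ 0 ∧ f z' ∈ G) ∧
        ∀ᶠ y in 𝓝 (f z'), TZ.S.SNCAt (Cm p) Γ y}) ∧
    TZ.S.OrbMor (Cm n) (Cm p) f Δ Γ

/-- **V13a**: the image of the exceptional set of a proper modification is small of codimension two.
(As V1: the analytic set `excSet u` is the union of countably many holomorphic images of balls on
which the rank of `u` is constant. If this rank were `n - 1`, then in suitable coordinates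
`u (z', z_n) = (z', U (z', z_n))` with `U (z', 0) = 0` and `∂U/∂z_n = 0` on `{z_n = 0}`, so
`U = z_n^k * unit`, `k ≥ 2`, near a general point, and `u` would not be generically injective.) -/
def ExcStmt : Prop :=
  ∀ (n : ℕ) (X X₁ : Type) [TopologicalSpace X] [CompactSpace X] [ChartedSpace (Cm n) X]
    [TopologicalSpace X₁] [ChartedSpace (Cm n) X₁] (u : X₁ → X), TZ.S.IsModif (Cm n) u →
    IsSmall2 (Cm n) (u '' excSet (Cm n) u)

/-- **V13b** (Hartogs): holomorphic functions extend across small sets of codimension two (Baire, as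
V2). -/
def HartogsStmt : Prop :=
  ∀ (n : ℕ) (X : Type) [TopologicalSpace X] [T2Space X] [ChartedSpace (Cm n) X]
    [IsManifold 𝓘(ℂ, Cm n) ω X] (N U : Set X) (s : X → ℂ), IsSmall2 (Cm n) N → IsOpen U →
    (∀ x ∈ U, x ∉ N → HolAt (Cm n) s x) →
    ∃ s' : X → ℂ, (∀ x ∈ U, HolAt (Cm n) s' x) ∧ ∀ x ∈ U, x ∉ N → s' x = s x

/-- **V13c**: `κ(X₁, K + Δ₁) ≤ κ(X, K + Δ)` for a modification `u : X₁ → X` with `u_* Δ₁ ≤ Δ`. (The
complement `Z` of `excSet u` is mapped isomorphically onto the complement of the small set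
`u '' excSet u`; a point of `u '' Z` has only one preimage.) -/
def BirStmt : Prop :=
  ∀ (n : ℕ) (X X₁ : Type) [TopologicalSpace X] [CompactSpace X] [ChartedSpace (Cm n) X]
    [TopologicalSpace X₁] [ChartedSpace (Cm n) X₁] (u : X₁ → X) (Δ : Set X → ℝ)
    (Δ₁ : Set X₁ → ℝ), TZ.S.IsModif (Cm n) u → IsSNC (Cm n) Δ → IsSNC (Cm n) Δ₁ →
    (∀ D, Δ₁ D ≠ 0 → D ⊆ excSet (Cm n) u ∨ IsPrime (Cm n) (u '' D) ∧ Δ₁ D = Δ (u '' D)) →
    TZ.S.kodX (Cm n) Δ₁ ≤ TZ.S.kodX (Cm n) Δ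

/-- **V13d** (optional: Remmert's theorem for prime divisors): the image of a prime divisor which is
not contained in the exceptional set is a prime divisor. -/
def PushStmt : Prop :=
  ∀ (n : ℕ) (X X₁ : Type) [TopologicalSpace X] [CompactSpace X] [ChartedSpace (Cm n) X]
    [TopologicalSpace X₁] [ChartedSpace (Cm n) X₁] (u : X₁ → X) (D : Set X₁),
    TZ.S.IsModif (Cm n) u → IsPrime (Cm n) D → ¬ D ⊆ excSet (Cm n) u → IsPrime (Cm n) (u '' D)

/-- **T-V for neat models**, the goal: if `f₁ : (X₁, Δ₁) → Y₁` is a neat model of the fibration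
`f : (X, Δ) → Y` of relative dimension one, then the inequality of Q1 holds for `f`, with `F` a
very general fibre of `f₁`. -/
def NeatStmt : Prop :=
  ∀ (p : ℕ) (X Y X₁ Y₁ : Type) [tX : TopologicalSpace X] [cX : ChartedSpace (Cm (p + 1)) X]
    [tY : TopologicalSpace Y] [cY : ChartedSpace (Cm p) Y] [TopologicalSpace X₁]
    [ChartedSpace (Cm (p + 1)) X₁] [TopologicalSpace Y₁] [ChartedSpace (Cm p) Y₁]
    (f : X → Y) (Δ : Set X → ℝ) (f₁ : X₁ → Y₁) (Δ₁ : Set X₁ → ℝ),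
    H511.Surf.IsFibration (Cm (p + 1)) (Cm p) f Δ →
    H511.Surf.IsFibration (Cm (p + 1)) (Cm p) f₁ Δ₁ →
    TZ.S.IsStep (Cm (p + 1)) (Cm p) f₁ Δ₁ f Δ → ExcOne (Cm (p + 1)) (Cm p) f₁ Δ₁ →
    ∃ H : ℕ → Set Y₁, (∀ k, IsThinSet (Cm p) (H k)) ∧ ∀ y, (∀ k, y ∉ H k) →
      ∀ (F : Type) [TopologicalSpace F] [ChartedSpace (Cm 1) F] (i : F → X₁),
        H511.Surf.IsFibre (Cm (p + 1)) (Cm 1) f₁ y i →
        TZ.S.kodR (Cm (p + 1)) (Cm 1) i Δ₁ +
          TZ.S.kap (Cm (p + 1)) (Cm p) ⟨X, Y, tX, tY, cX, cY, f, Δ⟩ ≤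
          TZ.S.kodX (Cm (p + 1)) Δ

end Vale.Agent.P281.H64.Gen
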