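import Vale.Agent.P281.H64.SpecG
import Vale.Agent.P281.H64.Thin.Defs

/-!
# P281, project T-V (helper64): statements of the blocks (FROZEN)

Generic smoothness without Remmert's theorem: closed sets which are contained in a countable union
of thin closed sets are as good as thin closed sets (Baire's theorem); orbifold bases of fibrations
without exceptional divisors.
-/

open Set Filter Metric Vale.Agent.P281 Vale.Agent.P281.J Vale.Agent.P281.H713
open Vale.Agent.P281.H64.Thin (IsThinSet)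
open scoped Topology ContDiff Manifold

noncomputable section

namespace Vale.Agent.P281.H64.Gen

section
variable (E E' : Type) [NormedAddCommGroup E] [NormedSpace ℂ E] [NormedAddCommGroup E']
  [NormedSpace ℂ E'] {X Y : Type} [TopologicalSpace X] [ChartedSpace E X] [TopologicalSpace Y]
  [ChartedSpace E' Y]

/-- `S` is closed, and contained in a countable union of thin closed sets. -/
def IsSmallSet (S : Set X) : Prop :=
  IsClosed S ∧ ∃ H : ℕ → Set X, (∀ k, IsThinSet E (H k)) ∧ S ⊆ ⋃ k, H k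

/-- `A` is an analytic subset of `X`: locally the set of common zeros of (any number of) holomorphic
functions. -/
def IsAnalyticSet (A : Set X) : Prop :=
  ∀ x, ∃ (U : Set X) (ι : Type) (h : ι → X → ℂ), IsOpen U ∧ x ∈ U ∧
    (∀ i, ∀ z ∈ U, HolAt E (h i) z) ∧ ∀ z ∈ U, z ∈ A ↔ ∀ i, h i z = 0

/-- No prime divisor `D` of `X` is exceptional for `f`: `f(D)` is `Y` or a prime divisor. -/
def NoExc (f : X → Y) : Prop :=
  ∀ D, IsPrime E D → closure (f '' D) = univ ∨ IsPrime E' (closure (f '' D))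

end

/-- **V1** (images of analytic sets; Sard). Proof: a proper analytic subset `B` of the ball of `ℂ^m` is
contained in the union of countably many holomorphic images of the ball of `ℂ^(m-1)` (order of
vanishing `ν` of a function `g` vanishing on `B`: near a point of order `ν`, the points of order `ν`
are contained in `{u = 0}`, `u` a derivative of order `ν - 1` of `g`, with `du ≠ 0`; Lindelöf). By
induction on `m`, `f(A ∩ φ(ball))` is contained in a countable union of thin closed sets, for every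
holomorphic `φ` on the ball of `ℂ^m`: if `φ⁻¹(A)` is not the ball, this is the case of `m - 1`; if
`φ(ball) ⊆ A`, then `f ∘ φ` has rank `< p` everywhere: near a point of maximal rank `r`, the image
of `f ∘ φ` is contained in a graph over `ℂ^r` (constant rank), the rest is again a proper analytic
subset of the ball. -/
def ImgStmt : Prop :=
  ∀ (n p : ℕ) (X Y : Type) [TopologicalSpace X] [T2Space X] [CompactSpace X] [ChartedSpace (Cm n) X]
    [IsManifold 𝓘(ℂ, Cm n) ω X] [TopologicalSpace Y] [T2Space Y] [ChartedSpace (Cm p) Y]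
    [IsManifold 𝓘(ℂ, Cm p) ω Y] (f : X → Y) (A : Set X), ContMDiff 𝓘(ℂ, Cm n) 𝓘(ℂ, Cm p) ω f →
    IsAnalyticSet (Cm n) A →
    (∀ (m : ℕ) (φ : Cm m → X), (∀ v ∈ ball (0 : Cm m) 1,
      ContMDiffAt 𝓘(ℂ, Cm m) 𝓘(ℂ, Cm n) ω φ v ∧ φ v ∈ A) → ∀ v ∈ ball (0 : Cm m) 1,
      ¬ Function.Surjective (mfderiv 𝓘(ℂ, Cm m) 𝓘(ℂ, Cm p) (fun v => f (φ v)) v)) →
    ∃ H : ℕ → Set Y, (∀ k, IsThinSet (Cm p) (H k)) ∧ f '' A ⊆ ⋃ k, H k

/-- **V1'** (the same on a non compact piece, for the local theory): `A` is an analytic subset of the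
ball of `ℂ^n`, `f` is holomorphic on the ball, with values in `ℂ^p`. -/
def ImgLocStmt : Prop :=
  ∀ (n p : ℕ) (f : Cm n → Cm p) (A : Set (Cm n)),
    (∀ z ∈ ball (0 : Cm n) 1, ContDiffAt ℂ ω f z) →
    (∀ z ∈ ball (0 : Cm n) 1, ∃ (U : Set (Cm n)) (ι : Type) (h : ι → Cm n → ℂ), IsOpen U ∧ z ∈ U ∧
      (∀ i, ∀ w ∈ U, AnalyticAt ℂ (h i) w) ∧ ∀ w ∈ U, w ∈ A ↔ ∀ i, h i w = 0) →
    (∀ (m : ℕ) (φ : Cm m → Cm n), (∀ v ∈ ball (0 : Cm m) 1,
      ContDiffAt ℂ ω φ v ∧ φ v ∈ A ∩ ball (0 : Cm n) 1) → ∀ v ∈ ball (0 : Cm m) 1,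
      ¬ Function.Surjective (fderiv ℂ (fun v => f (φ v)) v)) →
    ∃ H : ℕ → Set (Cm p), (∀ k, IsThinSet (Cm p) (H k)) ∧ f '' (A ∩ ball (0 : Cm n) 1) ⊆ ⋃ k, H k

/-- **V2** (Riemann's extension theorem across small sets). Proof: let `V` be the largest open set to
which `u` extends (locally, uniquely as `Sᶜ` is dense). If `Vᶜ` is not empty, then by Baire's
theorem (`Vᶜ` is closed in a locally compact Hausdorff space, and contained in `⋃ H k`) there are
`k`, a point `x ∈ Vᶜ` and an open `N ∋ x` with `Vᶜ ∩ N ⊆ H k`; so `u` extends to `N`, as `H k` is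
thin. -/
def ExtStmt : Prop :=
  ∀ (n : ℕ) (X : Type) [TopologicalSpace X] [T2Space X] [ChartedSpace (Cm n) X]
    [IsManifold 𝓘(ℂ, Cm n) ω X] (S : Set X) (u : X → ℂ), IsSmallSet (Cm n) S →
    (∀ x, x ∉ S → HolAt (Cm n) u x) → (∀ x, ∃ C : ℝ, ∀ᶠ z in 𝓝 x, z ∉ S → ‖u z‖ ≤ C) →
    ∃ v : X → ℂ, (∀ x, HolAt (Cm n) v x) ∧ ∀ x, x ∉ S → v x = u x

/-- **V3**: the complement of a small set is dense and connected. -/
def ComplStmt : Prop :=
  ∀ (p : ℕ) (Y : Type) [TopologicalSpace Y] [T2Space Y] [PreconnectedSpace Y]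
    [ChartedSpace (Cm p) Y] [IsManifold 𝓘(ℂ, Cm p) ω Y] (S : Set Y), IsSmallSet (Cm p) S →
    Dense Sᶜ ∧ IsPreconnected Sᶜ

/-- **V4** (generic smoothness, from V1 with `A` the critical set of `f`). -/
def CritStmt : Prop :=
  ∀ (n p : ℕ) (X Y : Type) [TopologicalSpace X] [T2Space X] [CompactSpace X] [ChartedSpace (Cm n) X]
    [IsManifold 𝓘(ℂ, Cm n) ω X] [TopologicalSpace Y] [T2Space Y] [ChartedSpace (Cm p) Y]
    [IsManifold 𝓘(ℂ, Cm p) ω Y] (f : X → Y), ContMDiff 𝓘(ℂ, Cm n) 𝓘(ℂ, Cm p) ω f →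
    (∀ y, IsConnected (f ⁻¹' {y})) →
    ∃ S : Set Y, IsSmallSet (Cm p) S ∧ ∀ S', S ⊆ S' → IsClosed S' →
      IsProperFibration (n := n) (p := p) f S'

/-- **V5** (from V1 with `A` the points of `D` where `f|D` is not étale, and `D ∩ D'`). -/
def EtaleStmt : Prop :=
  ∀ (p : ℕ) (X Y : Type) [TopologicalSpace X] [T2Space X] [CompactSpace X]
    [ChartedSpace (Cm (p + 1)) X] [IsManifold 𝓘(ℂ, Cm (p + 1)) ω X] [TopologicalSpace Y]
    [T2Space Y] [ChartedSpace (Cm p) Y] [IsManifold 𝓘(ℂ, Cm p) ω Y] (f : X → Y) (Δ : Set X → ℝ),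
    ContMDiff 𝓘(ℂ, Cm (p + 1)) 𝓘(ℂ, Cm p) ω f → IsSNC (Cm (p + 1)) Δ →
    ∃ S : Set Y, IsSmallSet (Cm p) S ∧ ∀ S', S ⊆ S' → IsEtale (n := p + 1) (p := p) f S' Δ

/-- **V6** (irreducible components): let `D` be a closed set which is locally a hypersurface
`{g = 0}` (`g` not reduced). If `D` is the smooth hypersurface `{e = 0}` near `z`, then the
irreducible component of `D` through `z` is a prime divisor, with local equation `e`.
Proof: `P` is the closure of the connected component `c` of `z` in the set of smooth points of `D`.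
Near a point `x` of `P` choose coordinates `(z', z_n)` such that `g(0, ·) ≢ 0` (so the zeros of
`g(z', ·)` in `|z_n| < r` are `M` in number, none with `|z_n| = r`): over `z'` off the (closed, small
by V1') image `T` of the points of `D` which are not smooth or where `D → ℂ^(n-1)` is not étale, the
polynomial `∏ (z_n - α)`, `(z', α) ∈ c`, is holomorphic with bounded coefficients: it extends (V2).
This is a reduced equation of `P`. -/
def IrrStmt : Prop :=
  ∀ (n : ℕ) (X : Type) [TopologicalSpace X] [T2Space X] [ChartedSpace (Cm n) X]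
    [IsManifold 𝓘(ℂ, Cm n) ω X] (D : Set X), IsClosed D →
    (∀ x, ∃ g : X → ℂ, HolAt (Cm n) g x ∧ (¬ ∀ᶠ z in 𝓝 x, g z = 0) ∧
      ∀ᶠ z in 𝓝 x, z ∈ D ↔ g z = 0) →
    ∀ (z : X) (e : X → ℂ), HolAt (Cm n) e z → e z = 0 → dif (Cm n) e z ≠ 0 →
    (∀ᶠ x in 𝓝 z, x ∈ D ↔ e x = 0) → ∃ P : Set X, IsPrime (Cm n) P ∧ P ⊆ D ∧
      IsLocalEq (Cm n) P e z

/-- **V7**: a thin closed subset of a compact manifold contains finitely many prime divisors (near a
point `x`, at most the number `M` of zeros of `g(z', ·)`, as in V6). -/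
def FinStmt : Prop :=
  ∀ (n : ℕ) (X : Type) [TopologicalSpace X] [T2Space X] [CompactSpace X] [ChartedSpace (Cm n) X]
    [IsManifold 𝓘(ℂ, Cm n) ω X] (A : Set X), IsThinSet (Cm n) A →
    {D : Set X | IsPrime (Cm n) D ∧ D ⊆ A}.Finite

/-- **V8** (from V6, V7; the case `n = 2`, `p = 1` is `H964/S4.lean`): the orbifold base `B(f, Δ)` of
a fibration without exceptional divisors is a rational boundary, and `f : (X, Δ) → (Y, B(f, Δ))` is
a morphism of orbifolds in codimension one. (Every prime divisor `D` in `f⁻¹(G)` has `f(D) = G`;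
if the coefficient of `G` is not `0`, then `Δ D ≠ 0` or `D` is in the critical set of `f`: V7;
the closure condition: otherwise `f(D)` would be contained in the singular locus of the support of
`B(f, Δ)`, by the identity theorem on the connected set of smooth points of `D`.) -/
def BaseStmt : Prop :=
  ∀ (n p : ℕ) (X Y : Type) [TopologicalSpace X] [T2Space X] [CompactSpace X] [ConnectedSpace X]
    [ChartedSpace (Cm n) X] [IsManifold 𝓘(ℂ, Cm n) ω X] [TopologicalSpace Y] [T2Space Y]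
    [ChartedSpace (Cm p) Y] [IsManifold 𝓘(ℂ, Cm p) ω Y] (f : X → Y) (Δ : Set X → ℝ),
    ContMDiff 𝓘(ℂ, Cm n) 𝓘(ℂ, Cm p) ω f → (∀ y, IsConnected (f ⁻¹' {y})) →
    IsSNC (Cm n) Δ → NoExc (Cm n) (Cm p) f → ∀ Γ : Set Y → ℝ,
    Γ = TZ.S.base (Cm n) (Cm p) f Δ →
    {G | Γ G ≠ 0}.Finite ∧ (∀ G, Γ G ≠ 0 → IsPrime (Cm p) G) ∧
    (∀ G, ∃ q : ℚ, Γ G = q ∧ 0 ≤ q ∧ q ≤ 1) ∧
    (∀ z G, Γ G ≠ 0 → f z ∈ G →
      z ∈ closure {z' | (∃ G, Γ G ≠ 0 ∧ f z' ∈ G) ∧
        ∀ᶠ y in 𝓝 (f z'), TZ.S.SNCAt (Cm p) Γ y}) ∧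
    TZ.S.OrbMor (Cm n) (Cm p) f Δ Γ

/-- **T-V**, the goal. -/
def TVStmt : Prop :=
  ∀ (p : ℕ) (X Y : Type) [TopologicalSpace X] [T2Space X] [CompactSpace X] [ConnectedSpace X]
    [ChartedSpace (Cm (p + 1)) X] [IsManifold 𝓘(ℂ, Cm (p + 1)) ω X] [TopologicalSpace Y]
    [T2Space Y] [ChartedSpace (Cm p) Y] [IsManifold 𝓘(ℂ, Cm p) ω Y] (f : X → Y) (Δ : Set X → ℝ),
    ContMDiff 𝓘(ℂ, Cm (p + 1)) 𝓘(ℂ, Cm p) ω f → (∀ y, IsConnected (f ⁻¹' {y})) →
    IsSNC (Cm (p + 1)) Δ →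
    ∃ H : ℕ → Set Y, (∀ k, IsThinSet (Cm p) (H k)) ∧
      ∀ (F : Type) [TopologicalSpace F] [CompactSpace F] [ConnectedSpace F] [ChartedSpace (Cm 1) F]
        [IsManifold 𝓘(ℂ, Cm 1) ω F] (i : F → X), ContMDiff 𝓘(ℂ, Cm 1) 𝓘(ℂ, Cm (p + 1)) ω i →
        (∀ t, Function.Injective (mfderiv 𝓘(ℂ, Cm 1) 𝓘(ℂ, Cm (p + 1)) i t)) →
        (∃ y, (∀ k, y ∉ H k) ∧ ∀ t, f (i t) = y) →
        (TZ.S.kodR (Cm (p + 1)) (Cm 1) i Δ + TZ.S.kodF (p + 1) p Δ (id : X → X) f ≤
            TZ.S.kodX (Cm (p + 1)) Δ ∧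
          TZ.S.KapLe (Cm (p + 1)) (Cm p) f Δ (TZ.S.kodF (p + 1) p Δ (id : X → X) f)) ∧
        (NoExc (Cm (p + 1)) (Cm p) f →
          TZ.S.kodR (Cm (p + 1)) (Cm 1) i Δ + TZ.S.kap (Cm (p + 1)) (Cm p)
            ⟨X, Y, inferInstance, inferInstance, inferInstance, inferInstance, f, Δ⟩ ≤
          TZ.S.kodX (Cm (p + 1)) Δ)

end Vale.Agent.P281.H64.Gen
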