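import Vale.Agent.P281.H64.Gen.Main
import Vale.Agent.P281.H150.Gen.Img
import Vale.Agent.P281.H383.Gen.Ext
import Vale.Agent.P281.H364.Gen.Crit
import Vale.Agent.P281.H399.Gen.Etale
import Vale.Agent.P281.H399.Gen.Base
import Vale.Agent.P281.H969.Gen.Fin
import Vale.Agent.P281.H511.TD
import Vale.Agent.P281.H713.TZ.SFinD

/-! P281 (helper64): the assembly of project T-V. -/

open Set Filter Metric Vale.Agent.P281 Vale.Agent.P281.J Vale.Agent.P281.H713
open Vale.Agent.P281.H713.TZ Vale.Agent.P281.H713.TZ.S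
open Vale.Agent.P281.H64.Thin (IsThinSet)
open scoped Topology ContDiff Manifold

noncomputable section

namespace Vale.Agent.P281.H64.Gen

section
variable {n : ℕ} {X : Type} [TopologicalSpace X] [ChartedSpace (Cm n) X]

theorem isBigOpen_id [IsManifold 𝓘(ℂ, Cm n) ω X] : J.IsBigOpen (Cm n) (id : X → X) := by
  refine ⟨contMDiff_id, Topology.IsOpenEmbedding.id, fun z => ?_, fun x => ?_⟩
  · rw [mfderiv_id]
    exact Function.injective_id
  · refine ⟨fun _ => 1, contMDiffAt_const, fun h => ?_, Eventually.of_forall fun z => ⟨fun h => ?_,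
      fun h => absurd h one_ne_zero⟩⟩
    · exact one_ne_zero h.self_of_nhds
    · exact absurd (mem_range_self z) h

omit [ChartedSpace (Cm n) X] in
theorem isRestriction_id (Δ : Set X → ℝ) : J.IsRestriction (id : X → X) Δ Δ :=
  ⟨fun D _ => rfl, fun D' h => ⟨D', h, rfl⟩⟩

end

/-- **T-V**, from the theorem on irreducible components -/
theorem tv (hirr : IrrStmt) : TVStmt := by
  intro p X Y _ _ _ _ _ _ _ _ _ _ f Δ hf hc hΔ
  obtain ⟨S₁, hS₁, hP⟩ := H364.crit H150.Gen.img (p + 1) p X Y f hf hc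
  obtain ⟨S₂, hS₂, hE⟩ := H399.Gen.etale H150.Gen.img p X Y f Δ hf hΔ
  set S : Set Y := S₁ ∪ S₂ with hSdef
  have hS : IsSmallSet (Cm p) S := hS₁.union hS₂
  have hPf : IsProperFibration (n := p + 1) (p := p) f S := hP S subset_union_left hS.1
  have hEt : IsEtale (n := p + 1) (p := p) f S Δ := hE S subset_union_right
  have hsurj : Function.Surjective f := fun y => by
    obtain ⟨x, hx⟩ := (hc y).nonempty
    exact ⟨x, hx⟩
  haveI : PreconnectedSpace Y := by
    rw [preconnectedSpace_iff_univ, ← hsurj.range_eq]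
    exact isPreconnected_range hf.continuous
  have hpre : IsPreconnected Sᶜ := (H383.Gen.compl p Y S hS).2
  have hfam : IsFamilyOfCurves (Cm (p + 1)) (Cm p) f S Δ :=
    H511.td p X Y f S Δ hf hPf hpre hΔ.1 (fun D hD => (hΔ.2.1 D hD).1) hEt
  obtain ⟨-, H, hH, hSH⟩ := hS
  refine ⟨H, hH, ?_⟩
  intro F _ _ _ _ _ i hi hinj hy
  obtain ⟨y, hyH, hiy⟩ := hy
  have hyS : y ∉ S := fun h => by
    obtain ⟨k, hk⟩ := mem_iUnion.1 (hSH h)
    exact hyH k hk
  have hfirst : TZ.S.kodR (Cm (p + 1)) (Cm 1) i Δ + TZ.S.kodF (p + 1) p Δ (id : X → X) f ≤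
      TZ.S.kodX (Cm (p + 1)) Δ := by
    rw [kodF_eq]
    exact main_oneG rfl (by simp) id isBigOpen_id f hf S ⟨hPf.isClosed, H, hH, hSH⟩ Δ hΔ Δ hΔ
      (isRestriction_id Δ) hfam i hi hinj hyS hiy
  have hkap : TZ.S.KapLe (Cm (p + 1)) (Cm p) f Δ (TZ.S.kodF (p + 1) p Δ (id : X → X) f) := by
    refine OrbLe.kapLe ?_
    have hsub : ∃ z, Function.Surjective (mfderiv 𝓘(ℂ, Cm (p + 1)) 𝓘(ℂ, Cm p) f z) := by
      obtain ⟨t⟩ : Nonempty F := inferInstance
      exact ⟨i t, hPf.submersive _ (by rw [hiy]; exact hyS)⟩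
    intro Γ hΓ₁ hΓ₂ hΓ₃ hnc hmor
    rw [kodF_eq]
    exact H713.CO.comp_g H413.TZ.genPart hΔ isBigOpen_id hf hsub ⟨hΓ₁, hΓ₂, hΓ₃⟩ hnc hΔ
      (isRestriction_id Δ) hmor
  refine ⟨⟨hfirst, hkap⟩, fun hN => ?_⟩
  refine le_trans ?_ hfirst
  obtain ⟨g1, g2, g3, g4, g5⟩ := H399.Gen.base hirr H969.Gen.fin (H364.crit H150.Gen.img)
    H383.Gen.compl (p + 1) p X Y f Δ hf hc hΔ hN _ rfl
  have hk := (hkap _ g1 g2 g3 g4 g5).2
    ⟨X, Y, inferInstance, inferInstance, inferInstance, inferInstance, f, Δ⟩ X inferInstance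
    inferInstance f Δ (Relation.EqvGen.refl _) rfl
  exact add_le_add le_rfl hk

end Vale.Agent.P281.H64.Gen
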